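import Mathlib
import Vale.Agent.Lib.P084.Loc.Main
import Vale.Agent.Lib.P084.Propagate2

/-! The Mazur-Ulam property from one point of positive curvature when no open piece of the sphere
is ruled by parallel segments. -/

namespace Vale.Agent.Lib.P084.Loc

open Set Metric Filter Topology

section

variable {X Y : Type*} [NormedAddCommGroup X] [NormedSpace ℝ X]
  [NormedAddCommGroup Y] [NormedSpace ℝ Y] {g : X → Y} {h : Y → X}
  [FiniteDimensional ℝ X] [FiniteDimensional ℝ Y]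

/-- **Main theorem, core form.** -/
theorem main_core' [Nontrivial X] (H : SphereIso g h) (hdim : 3 ≤ Module.finrank ℝ X)
    (hNC : NoCylinder X) {x₀ : X} (hx₀ : x₀ ≠ 0) (hgood : GoodAt x₀) :
    ∃ T : X ≃ₗᵢ[ℝ] Y, ∀ x, ‖x‖ = 1 → T x = g x := by
  obtain ⟨U, hU, hUo, hx₀U⟩ :=
    _root_.eventually_nhds_iff.1 ((hgood.eventually hx₀).and (isOpen_ne.mem_nhds hx₀))
  have h0 : (0 : X) ∉ U := fun h => (hU 0 h).2 rfl
  have hg : ∀ x ∈ U, GoodAt x := fun x hx => (hU x hx).1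
  have C : Ctx g h (coneOf U) {y : Y | radial h y ∈ coneOf U} := ctx_of_good H hUo h0 hg
  have hcurved : ∀ x ∈ coneOf U, Curved x := fun x hx => (goodAt_of_coneOf hg hx).2
  have hB : ∀ x ∈ coneOf U, radB g x = 0 := fun x hx => C.radB_eq_zero hdim hx (hcurved x hx)
  have hx₀D : x₀ ∈ coneOf U := subset_coneOf U hx₀U
  obtain ⟨x₁, hx₁⟩ : ∃ x₁ : X, x₁ = ‖x₀‖⁻¹ • x₀ := ⟨_, rfl⟩
  have hx₁u : ‖x₁‖ = 1 := by
    rw [hx₁]
    exact unit_of_ne hx₀
  have hx₁D : x₁ ∈ coneOf U := by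
    rw [hx₁]
    exact C.dX.unit hx₀D
  obtain ⟨r, hr, hball⟩ := Metric.isOpen_iff.1 C.dX.isOpen x₁ hx₁D
  have hdiff : DifferentiableOn ℝ (radA g) (ball x₁ r) := fun z hz =>
    (C.radB_hasFDerivAt (hball hz)).differentiableAt.differentiableWithinAt
  have hzero : EqOn (fderiv ℝ (radA g)) 0 (ball x₁ r) := fun z hz => hB z (hball hz)
  obtain ⟨L, hL⟩ := isOpen_ball.exists_is_const_of_fderiv_eq_zero
    (convex_ball x₁ r).isPreconnected hdiff hzero
  have hLx := hL x₁ (mem_ball_self hr)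
  obtain ⟨M, hM1, hM2⟩ := C.exists_radA_inverse hx₁D
  rw [hLx] at hM1 hM2
  let L' : X ≃L[ℝ] Y := ContinuousLinearEquiv.equivOfInverse L M hM1 hM2
  have hW : x₁ ∈ LinSet g (L' : X →L[ℝ] Y) := by
    refine ⟨r, hr, fun y hy hd => ?_⟩
    have hyB : y ∈ ball x₁ r := by
      rwa [mem_ball, dist_eq_norm]
    have h1 := C.radA_self (hball hyB)
    rw [hL y hyB, radial_of_unit g hy] at h1
    exact h1.symm
  have hgd : GoodDir x₁ := goodDir_of_unit C.dX C.nX hx₁D (hcurved x₁ hx₁D) hx₁u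
  have hprop := propagate' H.iso (fun x hx => sphere_odd H hx) dense_differentiableAt_norm hNC
    hx₁u hgd hW
  exact exists_linearIsometryEquiv_of_agree H (L : X →ₗ[ℝ] Y) (fun x hx => (hprop x hx).symm)

end

section

variable {X Y : Type*} [NormedAddCommGroup X] [NormedSpace ℝ X]
  [NormedAddCommGroup Y] [NormedSpace ℝ Y]

/-- **Main theorem.** -/
theorem curved_point_noCylinder [FiniteDimensional ℝ X] (hdim : 3 ≤ Module.finrank ℝ X)
    (hNC : NoCylinder X)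
    {x₀ : X} (hC2 : ContDiffAt ℝ 2 (fun z : X => ‖z‖) x₀)
    (hpos : ∀ u : X, u ≠ 0 → fderiv ℝ (fun z : X => ‖z‖) x₀ u = 0 →
      0 < fderiv ℝ (fderiv ℝ (fun z : X => ‖z‖)) x₀ u u)
    (f : sphere (0 : X) 1 ≃ᵢ sphere (0 : Y) 1) :
    ∃ T : X ≃ₗᵢ[ℝ] Y, ∀ x : sphere (0 : X) 1, T x = f x := by
  have : FiniteDimensional ℝ Y := finiteDimensional_of_sphere f
  have : Nontrivial X := Module.nontrivial_of_finrank_pos (R := ℝ) (by omega)
  obtain ⟨g, h, H, hg⟩ := exists_sphereIso f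
  have hx₀ : x₀ ≠ 0 := by
    rintro rfl
    exact not_differentiableAt_norm_zero X (hC2.differentiableAt (by norm_num))
  obtain ⟨T, hT⟩ := main_core' H hdim hNC hx₀ ⟨hC2, hpos⟩
  refine ⟨T, fun x => ?_⟩
  rw [hT x (by simpa using x.2), hg]

end

end Vale.Agent.Lib.P084.Loc
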